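import Vale.Agent.P141.H215.CapW
import Vale.Agent.P141.H677.FDb
import Vale.Agent.P141.H44.PcaI
import Vale.Agent.P141.H505.SkelStack1

/-!
# P141, line (A): the cap of the stack of `v` in the letters of `SkelStack1`

* `ncap_any` : the killed family at time `j` on every rectangle of the root with sides of scale at
  least `j - 1`;
* `ncap_FDs` : the same for the slot `C` of `FDs` (the cut of `v`);
* `capW3` : field `cap` of `Num`, every weight with `W ≤ θ` on the root, families `min j K`;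
* `capW3_I` : the weight `Wg` of the increasing part, `θ = be + 2`.
-/

namespace Vale.Agent.P141.H883

open Finset Matrix
open Vale.Agent.P141.PL (Pt iv ix mem_iv ix_ix cx)
open Vale.Agent.P141.PL.H315 (A2 Tri)
open Vale.Agent.P141.H48 (BSl ES cst sst bg)
open Vale.Agent.P141.H677 (fC kF KT sN rt)
open Vale.Agent.P141.H576 (kD Dd)
open Vale.Agent.P141.H215
open Vale.Agent.P141.H103 (QW)
open Vale.Agent.P075 (Ix val)
open Vale.Agent.P141.H677.Sk (FamA FamV FDs)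
open Vale.Agent.P141.H408 (Wg)

noncomputable section

open scoped Classical

theorem iv_up {k i : ℕ} (h : k ≤ i) (m : ℤ) : iv k m ⊆ iv i (ix (i - k) m) := by
  intro x hx
  rw [mem_iv] at hx ⊢
  rw [← hx, ix_ix, Nat.add_sub_cancel' h]

theorem cell_up {k i K : ℕ} (h : k ≤ i) (hi : i ≤ K) {m M : ℤ} (hm : m ∈ iv (K - k) M) :
    ix (i - k) m ∈ iv (K - i) M := by
  rw [mem_iv] at hm ⊢
  rw [ix_ix, ← hm]
  congr 1
  omega

section data

variable {ι : Type*} [Fintype ι] {Λ s ez cP : ℝ} {n K : ℕ} {F : ℕ → Pt → ℝ}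
  {Q : ℕ → Pt → Prop} {a : ℤ × ℤ → ℝ} {v : ℤ → ℤ → ι → ℝ} {D : ℕ → ℤ → ℤ → Prop} {M1 M3 : ℤ}

/-- **Every rectangle with sides of scale at least `j - 1`, time `j`.** -/
theorem ncap_any (h : CD Λ s ez cP n K F Q a v D M1 M3) {j i k : ℕ} (hj : j ≤ K) (hi : i ≤ K)
    (hk : k ≤ K) (hji : j ≤ i + 1) (hjk : j ≤ k + 1) {m1 m3 : ℤ} (h1 : m1 ∈ iv (K - i) M1)
    (h3 : m3 ∈ iv (K - k) M3) (x0 : ℤ) :
    NCap (4 * capV Λ s ez * (2 ^ k * 2 ^ i)) (iv k m3) (iv i m1)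
      (nrm (fC v (kD D F) x0 j)) := by
  have b := ncap_fC h (k := j) (i := max k j) (j := max i j) (le_max_right _ _)
    (le_max_right _ _) (max_le hk hj) (max_le hi hj) (cell_up (le_max_left _ _) (max_le hi hj) h1)
    (cell_up (le_max_left _ _) (max_le hk hj) h3) x0
  refine (b.sub (iv_up (le_max_left _ _) m3) (iv_up (le_max_left _ _) m1)).mono ?_
  have e : ∀ p : ℕ, j ≤ p + 1 → (2 : ℝ) ^ max p j ≤ 2 * 2 ^ p := by
    intro p hp
    rw [← pow_succ']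
    exact pow_le_pow_right₀ one_le_two (max_le (Nat.le_succ p) hp)
  have hc := capV_nonneg (Λ := Λ) (s := s) h.ez0
  have e1 : (2 : ℝ) ^ max k j * 2 ^ max i j ≤ 2 * 2 ^ k * (2 * 2 ^ i) :=
    mul_le_mul (e k hjk) (e i hji) (by positivity) (by positivity)
  calc capV Λ s ez * (2 ^ max k j * 2 ^ max i j) ≤ capV Λ s ez * (2 * 2 ^ k * (2 * 2 ^ i)) :=
        mul_le_mul_of_nonneg_left e1 hc
    _ = _ := by ring

/-- the points of `v` removed -/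
theorem cd_cut (h : CD Λ s ez cP n K F Q a v D M1 M3) {v' : ℤ → ℤ → ι → ℝ}
    (hv : ∀ x z, v' x z = v x z ∨ v' x z = 0) : CD Λ s ez cP n K F Q a v' D M1 M3 := by
  refine ⟨h.Λ0, h.s0, h.ez0, h.hKn, h.bs, h.dd, h.dead, h.rng, fun x hx z hz => ?_, h.mass⟩
  rcases hv x z with e | e
  · rw [e]
    exact h.maj x hx z hz
  · rw [e, dotProduct_zero]
    exact sq_nonneg _

end data

section fds

variable {ι : Type} [Fintype ι] [DecidableEq ι] {q : H401.Num} {n : ℕ} {ez : ℝ}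
  {F1 F2 F3 : ℕ → Pt → ℝ} {K : ℕ} {x : Pt} {s r P : ℝ} {U : Tri} {g : ℤ → ℤ → ℝ}
  {u v : ℤ → ℤ → ι → ℝ} {A : FamA} {b C : FamV ι} {Q1 Q2 Q3 : ℕ → Pt → Prop}
  {v' : ℤ → ℤ → ι → ℝ}

/-- **The slot `C` of the bundle.** -/
theorem ncap_FDs (hD : FDs q n ez F1 F2 F3 K x s r U g u v A b C Q1 Q2 Q3 v')
    (hC : H305.Cls K x s r P U g u v) (ht : 0 < q.t) (hs : 0 ≤ s) (hez : 0 ≤ ez) (hKn : K ≤ n)
    {j i k : ℕ}
    (hj : j ≤ K) (hi : i ≤ K) (hk : k ≤ K) (hji : j ≤ i + 1) (hjk : j ≤ k + 1) {m1 m3 : ℤ}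
    (h1 : m1 ∈ iv (K - i) (ix K x.1)) (h3 : m3 ∈ iv (K - k) (ix K x.2.2)) (x0 : ℤ) :
    NCap (4 * capV q.Lm s ez * (2 ^ k * 2 ^ i)) (iv k m3) (iv i m1) (nrm (C x0 j)) := by
  have hL : 0 ≤ q.Lm := Real.rpow_nonneg ht.le _
  have h := cd_cut (cd_of_cls hC hL hs hez hKn hD.B2) hD.v_or
  have e : C x0 j = fC v' (kD (fun k y z => sst q.Lm U.2.1 K k y z) F2) x0 j := by
    funext z x'
    rw [hD.C_eq, ← H576.kD_sst]
    rfl
  rw [e]
  exact ncap_any h hj hi hk hji hjk h1 h3 x0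

/-- **Field `cap` of `Num`** for every weight with `W ≤ θ` on the root; families truncated at
`K`. -/
theorem capW3 (hD : FDs q n ez F1 F2 F3 K x s r U g u v A b C Q1 Q2 Q3 v')
    (hC : H305.Cls K x s r P U g u v) (ht : 0 < q.t) (hs : 0 ≤ s) (hez : 0 ≤ ez) (hKn : K ≤ n)
    (x0 : ℤ) {θ cC : ℝ} (hθ : 0 ≤ θ) {W : ℤ → ℕ → ℤ → Matrix ι ι ℝ}
    (hW : ∀ x1 ∈ iv K (ix K x.1), ∀ k ≤ K, ∀ m, (θ • (1 : Matrix ι ι ℝ) - W x1 k m).PosSemidef)
    (hc : 16 * θ * (√(q.Lm * s) * ez) ≤ cC ^ 2) (k a : ℕ) (n' m : ℤ) (hk : k ≤ K) (ha : a ≤ K)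
    (j : ℕ) (_hj : min k a ≤ j) (hj' : j ≤ min k a + 1) (hn : n' ∈ iv (K - a) (ix K x.1))
    (hm : m ∈ iv (K - k) (ix K x.2.2)) :
    (cC ^ 2 • (1 : Matrix (Ix k) (Ix k) ℝ) -
      H505.Sk1.W3 (fun x1 z => C x0 (min j K) z x1) W k a n' m).PosSemidef := by
  have h := ncap_FDs hD hC ht hs hez hKn (j := min j K) (min_le_right _ _) ha hk
    ((min_le_left _ _).trans (hj'.trans (Nat.succ_le_succ (min_le_right _ _))))
    ((min_le_left _ _).trans (hj'.trans (Nat.succ_le_succ (min_le_left _ _)))) hn hm x0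
  have h0 := capV_nonneg (Λ := q.Lm) (s := s) hez
  have h2 := h.flip
  rw [mul_comm ((2 : ℝ) ^ k)] at h2
  have h4 := NCap.qw (by positivity) hθ h2 (M := fun x1 => W x1 k m)
    fun x1 hx1 => hW x1 (cell_sub ha hn hx1) k hk m
  have h5 : ((cC ^ 2 - θ * (4 * capV q.Lm s ez)) • (1 : Matrix (Ix k) (Ix k) ℝ)).PosSemidef := by
    refine PosSemidef.one.smul ?_
    unfold capV
    linarith
  have e := h5.add h4
  rw [sub_smul, sub_add_sub_cancel] at e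
  exact e

/-- **The weight of the increasing part.** -/
theorem capW3_I (hD : FDs q n ez F1 F2 F3 K x s r U g u v A b C Q1 Q2 Q3 v')
    (hC : H305.Cls K x s r P U g u v) (ht : 0 < q.t) (hs : 0 ≤ s) (hez : 0 ≤ ez) (hKn : K ≤ n)
    (x0 : ℤ) {cC be l : ℝ} (hbe : 0 ≤ be) {S c : ℤ} {G Kq : ℤ → ℕ → ℤ → Matrix ι ι ℝ}
    (hT : ∀ x, H420.Tr l K (G x) (Kq x))
    (hc : 16 * (be + 2) * (√(q.Lm * s) * ez) ≤ cC ^ 2) (k a : ℕ) (n' m : ℤ) (hk : k ≤ K)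
    (ha : a ≤ K) (j : ℕ) (hj : min k a ≤ j) (hj' : j ≤ min k a + 1)
    (hn : n' ∈ iv (K - a) (ix K x.1)) (hm : m ∈ iv (K - k) (ix K x.2.2)) :
    (cC ^ 2 • (1 : Matrix (Ix k) (Ix k) ℝ) -
      H505.Sk1.W3 (fun x1 z => C x0 (min j K) z x1) (fun x1 k m => Wg be l K S Kq c x0 x1 k m) k a
        n' m).PosSemidef := by
  refine capW3 hD hC ht hs hez hKn x0 (by linarith) (fun x1 _ i _ p => ?_) hc k a n' m hk ha j hj
    hj' hn hm
  have h := H652.Th_le_two (M := S) (hT x1) c x0 x1 i p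
  unfold Wg
  rw [add_smul, add_sub_add_left_eq_sub]
  exact h

end fds

end

end Vale.Agent.P141.H883
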