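import Vale.Agent.P141.H883.CapT

/-!
# P141, line (A): the cap of the family of `v`, no loss one scale below

* `prod_cap2` : the product kernel with the constant `2`;
* `ncap_sq` : the killed family at time `k` or `k + 1` on the squares of scale `k`, cap `capV`;
* `ncap_all` : the same on every rectangle of the root with sides of scale at least `j - 1`.
-/

namespace Vale.Agent.P141.H883

open Finset Matrix
open Vale.Agent.P141.PL (Pt iv ix mem_iv ix_ix cx)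
open Vale.Agent.P141.PL.H315 (A2 Tri)
open Vale.Agent.P141.H48 (BSl ES cst sst bg)
open Vale.Agent.P141.H677 (fC kF KT sN rt)
open Vale.Agent.P141.H576 (kD Dd)
open Vale.Agent.P141.H215

noncomputable section

open scoped Classical

/-- **The cap of a product kernel**, constant `2`. -/
theorem prod_cap2 {X Y : Finset ℤ} {M q e : ℝ} (hM : 0 < M) (hq : 0 ≤ q)
    {w Z : ℤ → ℤ → ℝ} (hw0 : ∀ x ∈ X, ∀ y ∈ Y, 0 ≤ w x y) (hw1 : ∀ x ∈ X, ∀ y ∈ Y, w x y ≤ 1)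
    (hm : ∑ x ∈ X, ∑ y ∈ Y, w x y ^ 2 ≤ q ^ 2 * M ^ 2)
    (hr : ∀ x ∈ X, ∑ y ∈ Y, Z x y ^ 2 ≤ e * M) (hc : ∀ y ∈ Y, ∑ x ∈ X, Z x y ^ 2 ≤ e * M)
    (a b : ℤ → ℝ) :
    (∑ x ∈ X, ∑ y ∈ Y, a x * b y * (w x y * |Z x y|)) ^ 2 ≤
      2 * (q * e) * M ^ 2 * (∑ x ∈ X, a x ^ 2) * ∑ y ∈ Y, b y ^ 2 := by
  set H : Finset ℤ := X.filter fun x => q * M < ∑ y ∈ Y, w x y ^ 2 with hH
  set N : Finset ℤ := X.filter fun x => ¬ q * M < ∑ y ∈ Y, w x y ^ 2 with hN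
  have hHX : H ⊆ X := filter_subset _ _
  have hNX : N ⊆ X := filter_subset _ _
  have hsp : ∀ f : ℤ → ℝ, ∑ x ∈ X, f x = ∑ x ∈ N, f x + ∑ x ∈ H, f x := fun f => by
    rw [add_comm]
    exact (sum_filter_add_sum_filter_not X _ f).symm
  have absq : ∀ x y, |Z x y| ^ 2 = Z x y ^ 2 := fun x y => sq_abs _
  -- light rows
  have l1 : ∀ x ∈ N, ∑ y ∈ Y, w x y ^ 2 ≤ q * M := fun x hx => not_lt.1 (mem_filter.1 hx).2
  have l2 : ∀ y ∈ Y, ∑ x ∈ N, |Z x y| ^ 2 ≤ e * M := by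
    intro y hy
    simp only [absq]
    exact (sum_le_sum_of_subset_of_nonneg hNX fun _ _ _ => sq_nonneg _).trans (hc y hy)
  have A1 := H618.cs_rows (a := a) (b := b) (Z := fun x y => |Z x y|) l1 l2
  -- heavy rows: few
  have hcard : (H.card : ℝ) ≤ q * M := by
    rcases hq.eq_or_lt with hq0 | hq0
    · have h3 : H = ∅ := by
        rw [hH, filter_eq_empty_iff]
        intro x hx hlt
        have h4 : ∑ y ∈ Y, w x y ^ 2 ≤ ∑ x ∈ X, ∑ y ∈ Y, w x y ^ 2 :=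
          single_le_sum (f := fun x => ∑ y ∈ Y, w x y ^ 2)
            (fun _ _ => sum_nonneg fun _ _ => sq_nonneg _) hx
        rw [← hq0] at hm hlt
        have h5 := h4.trans hm
        norm_num at h5 hlt
        linarith
      rw [h3, ← hq0]
      simp
    · have h4 : (H.card : ℝ) * (q * M) ≤ q ^ 2 * M ^ 2 := by
        calc (H.card : ℝ) * (q * M) = ∑ x ∈ H, q * M := by simp
          _ ≤ ∑ x ∈ H, ∑ y ∈ Y, w x y ^ 2 :=
              sum_le_sum fun x hx => (mem_filter.1 hx).2.le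
          _ ≤ ∑ x ∈ X, ∑ y ∈ Y, w x y ^ 2 :=
              sum_le_sum_of_subset_of_nonneg hHX fun _ _ _ => sum_nonneg fun _ _ => sq_nonneg _
          _ ≤ _ := hm
      have h5 : 0 < q * M := by positivity
      have h6 : (H.card : ℝ) * (q * M) ≤ q * M * (q * M) := h4.trans (le_of_eq (by ring))
      exact le_of_mul_le_mul_right h6 h5
  have cH : ∀ y ∈ Y, ∑ x ∈ H, w x y ^ 2 ≤ q * M := by
    intro y hy
    refine le_trans ?_ hcard
    calc ∑ x ∈ H, w x y ^ 2 ≤ ∑ x ∈ H, (1 : ℝ) := by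
          refine sum_le_sum fun x hx => ?_
          exact pow_le_one₀ (hw0 x (hHX hx) y hy) (hw1 x (hHX hx) y hy)
      _ = (H.card : ℝ) := by simp
  have rZ : ∀ x ∈ H, ∑ y ∈ Y, |Z x y| ^ 2 ≤ e * M := by
    intro x hx
    simp only [absq]
    exact hr x (hHX hx)
  have A2 := H618.cs_rows (X := Y) (Y := H) (a := b) (b := a) (w := fun y x => w x y)
    (Z := fun y x => |Z x y|) cH rZ
  have e2 : ∑ y ∈ Y, ∑ x ∈ H, b y * a x * (w x y * |Z x y|) =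
      ∑ x ∈ H, ∑ y ∈ Y, a x * b y * (w x y * |Z x y|) := by
    rw [sum_comm]
    exact sum_congr rfl fun x _ => sum_congr rfl fun y _ => by ring
  rw [e2] at A2
  rw [hsp, hsp fun x => a x ^ 2]
  set S1 := ∑ x ∈ N, ∑ y ∈ Y, a x * b y * (w x y * |Z x y|)
  set S2 := ∑ x ∈ H, ∑ y ∈ Y, a x * b y * (w x y * |Z x y|)
  have h7 : (S1 + S2) ^ 2 ≤ 2 * S1 ^ 2 + 2 * S2 ^ 2 := by nlinarith [sq_nonneg (S1 - S2)]
  refine h7.trans ?_
  calc 2 * S1 ^ 2 + 2 * S2 ^ 2 ≤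
      2 * (q * M * (e * M) * (∑ x ∈ N, a x ^ 2) * ∑ y ∈ Y, b y ^ 2) +
        2 * (q * M * (e * M) * (∑ y ∈ Y, b y ^ 2) * ∑ x ∈ H, a x ^ 2) := by
        linarith [A1, A2]
    _ = _ := by ring

section data

variable {ι : Type*} [Fintype ι] {Λ s ez cP : ℝ} {n K : ℕ} {F : ℕ → Pt → ℝ}
  {Q : ℕ → Pt → Prop} {a : ℤ × ℤ → ℝ} {v : ℤ → ℤ → ι → ℝ} {D : ℕ → ℤ → ℤ → Prop} {M1 M3 : ℤ}

/-- **Squares of scale `p`, time `j = p` or `j = p + 1`.** -/
theorem ncap_sq (h : CD Λ s ez cP n K F Q a v D M1 M3) {p j : ℕ} (hjK : j ≤ K) (hpj : p ≤ j)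
    (hjp : j ≤ p + 1) {m1 m3 : ℤ} (h1 : m1 ∈ iv (K - p) M1) (h3 : m3 ∈ iv (K - p) M3) (x0 : ℤ) :
    NCap (capV Λ s ez * (2 ^ p * 2 ^ p)) (iv p m3) (iv p m1) (nrm (fC v (kD D F) x0 j)) := by
  have hc0 : 0 ≤ capV Λ s ez * (2 ^ p * 2 ^ p) := mul_nonneg (capV_nonneg h.ez0) (by positivity)
  set n1 := ix (j - p) m1 with hn1
  set n3 := ix (j - p) m3 with hn3
  have s1 : iv p m1 ⊆ iv j n1 := iv_up hpj m1
  have s3 : iv p m3 ⊆ iv j n3 := iv_up hpj m3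
  have g1 : n1 ∈ iv (K - j) M1 := cell_up hpj hjK h1
  have g3 : n3 ∈ iv (K - j) M3 := cell_up hpj hjK h3
  by_cases hz : j = 0 ∨ D j (2 ^ j * n1) (2 ^ j * n3)
  · refine ncap_zero hc0 fun z hz' x hx => ?_
    have e : kD D F j (x0, x, z) = 0 := by
      unfold H576.kD
      rw [if_pos]
      rcases hz with hz | hz
      · exact Or.inl hz
      · exact Or.inr ((h.dd.congr j _ _ _ _ (ix_corner (s1 hx)) (ix_corner (s3 hz'))).2 hz)
    unfold nrm H677.fC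
    rw [e, zero_smul, dotProduct_zero, Real.sqrt_zero]
  push Not at hz
  obtain ⟨hj0, hD⟩ := hz
  have hal : ¬ sst Λ a K j (2 ^ j * n1) (2 ^ j * n3) := fun hs => hD (h.dead j hjK n1 g1 n3 g3 hs)
  have c1 := cell_sub (hpj.trans hjK) h1
  have c3 := cell_sub (hpj.trans hjK) h3
  have d1 := cell_sub hjK g1
  have d3 := cell_sub hjK g3
  have hm := H618.mass_alive hjK h.Λ0 hal
    (h.mass _ (d1 (corner_iv j n1)) _ (d3 (corner_iv j n3)))
  have hq0 : 0 ≤ Λ * s := mul_nonneg h.Λ0 h.s0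
  have h4 : (4 : ℝ) ^ j ≤ 4 * 4 ^ p := by
    rw [← pow_succ']
    exact pow_le_pow_right₀ (by norm_num) hjp
  have hp : (4 : ℝ) ^ p = (2 ^ p) ^ 2 := by
    rw [← pow_mul, mul_comm p 2, pow_mul]
    norm_num
  have hm' : ∑ z ∈ iv p m3, ∑ x ∈ iv p m1, a (x, z) ^ 2 ≤ (2 * √(Λ * s)) ^ 2 * (2 ^ p) ^ 2 := by
    rw [mul_pow, Real.sq_sqrt hq0, sum_comm, ← hp]
    have k1 : ∑ x ∈ iv p m1, ∑ z ∈ iv p m3, a (x, z) ^ 2 ≤
        ∑ x ∈ iv j n1, ∑ z ∈ iv j n3, a (x, z) ^ 2 := by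
      refine (sum_le_sum fun x _ => sum_le_sum_of_subset_of_nonneg s3 fun _ _ _ =>
        sq_nonneg _).trans ?_
      exact sum_le_sum_of_subset_of_nonneg s1 fun _ _ _ => sum_nonneg fun _ _ => sq_nonneg _
    have k2 := mul_le_mul_of_nonneg_left h4 hq0
    linarith
  have ln1 : ∀ z ∈ iv p m3, ∑ x ∈ iv p m1, F j (x0, x, z) ^ 2 ≤ ez * 2 ^ p := by
    intro z _
    rcases hpj.eq_or_lt with e | hl
    · rw [e]
      exact H618.line1 h.bs (by omega) (hjK.trans h.hKn) m1 x0 z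
    · have e : j = p + 1 := by omega
      rw [e]
      exact h.bs.l1 p (by have := h.hKn; omega) m1 x0 z
  have ln2 : ∀ x ∈ iv p m1, ∑ z ∈ iv p m3, F j (x0, x, z) ^ 2 ≤ ez * 2 ^ p := by
    intro x _
    rcases hpj.eq_or_lt with e | hl
    · rw [e]
      exact H618.line2 h.bs (by omega) (hjK.trans h.hKn) m3 x0 x
    · have e : j = p + 1 := by omega
      rw [e]
      exact h.bs.l2 p (by have := h.hKn; omega) m3 x0 x
  have key := prod_cap2 (X := iv p m3) (Y := iv p m1) (M := 2 ^ p) (q := 2 * √(Λ * s)) (e := ez)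
    (w := fun z x => a (x, z)) (Z := fun z x => F j (x0, x, z)) (by positivity)
    (mul_nonneg two_pos.le (Real.sqrt_nonneg _)) (fun z hz x hx => (h.rng x (c1 hx) z (c3 hz)).1)
    (fun z hz x hx => (h.rng x (c1 hx) z (c3 hz)).2) hm' ln1 ln2
  have hN : NCap (capV Λ s ez * (2 ^ p * 2 ^ p)) (iv p m3) (iv p m1)
      fun z x => a (x, z) * |F j (x0, x, z)| := by
    intro f g
    refine (key f g).trans (le_of_eq ?_)
    unfold capV
    ring
  refine hN.le (fun z _ x _ => nrm_nonneg _ _ _) fun z hz x hx => ?_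
  have r := h.rng x (c1 hx) z (c3 hz)
  have e1 : fC v (kD D F) x0 j z x ⬝ᵥ fC v (kD D F) x0 j z x ≤ (a (x, z) * |F j (x0, x, z)|) ^ 2 := by
    have e2 : kD D F j (x0, x, z) ^ 2 ≤ F j (x0, x, z) ^ 2 := by
      unfold H576.kD
      split_ifs
      · rw [zero_pow two_ne_zero]
        exact sq_nonneg _
      · exact le_rfl
    unfold H677.fC
    rw [smul_dotProduct, dotProduct_smul, smul_eq_mul, smul_eq_mul, mul_pow, sq_abs, ← mul_assoc,
      ← sq, mul_comm (a (x, z) ^ 2)]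
    exact mul_le_mul e2 (h.maj x (c1 hx) z (c3 hz)) (dot_nonneg _) (sq_nonneg _)
  unfold nrm
  rw [← Real.sqrt_sq (mul_nonneg r.1 (abs_nonneg (F j (x0, x, z))))]
  exact Real.sqrt_le_sqrt e1

/-- **Every rectangle with sides of scale at least `j - 1`, time `j`, cap `capV`.** -/
theorem ncap_all (h : CD Λ s ez cP n K F Q a v D M1 M3) {j i k : ℕ} (hj : j ≤ K) (hi : i ≤ K)
    (hk : k ≤ K) (hji : j ≤ i + 1) (hjk : j ≤ k + 1) {m1 m3 : ℤ} (h1 : m1 ∈ iv (K - i) M1)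
    (h3 : m3 ∈ iv (K - k) M3) (x0 : ℤ) :
    NCap (capV Λ s ez * (2 ^ k * 2 ^ i)) (iv k m3) (iv i m1)
      (nrm (fC v (kD D F) x0 j)) := by
  obtain ⟨p, hpk, hpi, hpj, hjp⟩ : ∃ p, p ≤ k ∧ p ≤ i ∧ p ≤ j ∧ j ≤ p + 1 :=
    ⟨min j (min k i), by omega, by omega, by omega, by omega⟩
  have key := NCap.union (N := nrm (fC v (kD D F) x0 j)) (c := capV Λ s ez * (2 ^ p * 2 ^ p))
    (X := iv k m3) (Y := iv i m1) (I := iv (k - p) m3) (J := iv (i - p) m1) (f := iv p) (g := iv p)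
    (fun G => (PL.H804.iv_sum hpk m3 G).symm) (fun G => (PL.H804.iv_sum hpi m1 G).symm)
    fun q3 hq3 q1 hq1 => ncap_sq h hj hpj hjp ?_ ?_ x0
  · refine key.mono (le_of_eq ?_)
    rw [← card_sub hpk m3, ← card_sub hpi m1]
    ring
  · rw [mem_iv] at hq1 h1 ⊢
    rw [← h1, ← hq1, ix_ix]
    congr 1
    omega
  · rw [mem_iv] at hq3 h3 ⊢
    rw [← h3, ← hq3, ix_ix]
    congr 1
    omega

end data

end

end Vale.Agent.P141.H883
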