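import Vale.Agent.P141.H883.CapN
import Vale.Agent.P141.H808.NumCA
import Vale.Agent.P141.H482.LCap

/-!
# P141, line (A), increasing part: field `cap` of the numbers of the pair `(Ct, A)`

* `fCap : H808.FCap`.
-/

namespace Vale.Agent.P141.H883

open Finset Matrix
open Vale.Agent.P141.PL (Pt iv ix mem_iv ix_ix cx)
open Vale.Agent.P141.PL.H315 (A2 Tri)
open Vale.Agent.P141.H48 (BSl ES cst sst bg)
open Vale.Agent.P141.H677 (fC kF KT sN rt tr_T)
open Vale.Agent.P141.H576 (kD Dd)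
open Vale.Agent.P141.H215
open Vale.Agent.P141.H103 (QW)
open Vale.Agent.P075 (Ix val)

noncomputable section

open scoped Classical

section one

variable {ι : Type} [Fintype ι] [DecidableEq ι]

/-- the cap at class data, any constant factor `c` -/
theorem cap_one {p : H401.Num} {n K : ℕ} {ez s r P cP θ c cC : ℝ} {F2 : ℕ → Pt → ℝ}
    {Q2 : ℕ → Pt → Prop} {x : Pt} {U : Tri} {g : ℤ → ℤ → ℝ} {u v : ℤ → ℤ → ι → ℝ}
    (ht : 0 < p.t) (hs : 0 < s) (hez : 0 < ez) (hK : K ≤ n) (hcls : H305.Cls K x s r P U g u v)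
    (q2 : BSl n ez cP F2 Q2) (hθ : 0 ≤ θ) {W : ℤ → ℕ → ℤ → Matrix ι ι ℝ}
    (hW : ∀ x1 k m, (θ • (1 : Matrix ι ι ℝ) - W x1 k m).PosSemidef)
    (hc : c ^ 2 * (θ * capV p.Lm s ez) ≤ cC ^ 2) (x0 : ℤ) (k a : ℕ) (n' m : ℤ) (hk : k ≤ K)
    (ha : a ≤ K) (j : ℕ) (hj' : j ≤ min k a + 1)
    (hn : n' ∈ iv (K - a) (cx K x).1) (hm : m ∈ iv (K - k) (cx K x).2.2) :
    (cC ^ 2 • (1 : Matrix (Ix k) (Ix k) ℝ) -
      H505.Sk1.W3 (fun x1 z => c • H401.mC p U K v F2 x0 (min j K) z x1) W k a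
        n' m).PosSemidef := by
  have hLm : (0 : ℝ) ≤ p.Lm := (Real.rpow_pos_of_pos ht _).le
  have hcd := cd_of_cls hcls hLm hs.le hez.le hK q2
  have h1 := ncap_all hcd (j := min j K) (min_le_right _ _) ha hk
    ((min_le_left _ _).trans (hj'.trans (Nat.succ_le_succ (min_le_right _ _))))
    ((min_le_left _ _).trans (hj'.trans (Nat.succ_le_succ (min_le_left _ _)))) hn hm x0
  have h2 := h1.flip
  rw [mul_comm ((2 : ℝ) ^ k)] at h2
  have h4 := (NCap.qw (capV_nonneg hez.le) hθ h2 (M := fun x1 => W x1 k m)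
    fun x1 _ => hW x1 k m).smul (sq_nonneg c)
  rw [smul_sub, smul_smul] at h4
  have h5 := H482.LCap.psd_up hc h4
  unfold H505.Sk1.W3
  rw [H482.LCap.QW_smul]
  exact h5

end one

/-- **FIELD `cap`.** -/
theorem fCap : H808.FCap := by
  intro a _ _
  refine ⟨1, one_pos, fun e0 he0 _ => ⟨1, one_pos, fun k8 _ _ => ⟨1, one_pos, fun k3 _ _ => ?_⟩⟩⟩
  intro δ _
  refine ⟨1, 1, one_pos, one_pos, fun c _ _ d hd hd1 Kt e cP L _ _ _ _ => ⟨1, zero_le_one, ?_⟩⟩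
  intro t ht ht1 n ez F1 F2 F3 _ _ _ o _ K hK x ι _ _ s r U g' u v hs hr hcls Q1 Q2 Q3 _ q2 _ hez
  set p : H401.Num := ⟨a, e0, k8, k3, c, d, Kt, e, cP, L, 1, t⟩ with hp
  have hy : 0 < p.t / r := div_pos ht (by linarith)
  have hy1 : p.t / r ≤ 1 := (div_le_self ht.le hr).trans ht1
  have hbe1 : H408.beI p r ≤ 1 := Real.rpow_le_one hy.le hy1 (by
    show 0 ≤ e0 / 2
    linarith)
  have hl : (0 : ℝ) < p.lam s r := H401.Num.lam_pos (p := p) ht hs hr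
  intro t' _ x0 _ k i n' m hk hi j _ hj' hn hm
  exact cap_one (p := p) (θ := 3) (c := (√ez)⁻¹) ht hs hez hK hcls.toCls q2 (by norm_num)
    (W := H808.thS p s r o K x u x0)
    (fun x1 k m => H482.LCap.Wg_le hbe1 (fun y => tr_T hl K u y) (o - 2) x0 x1 k m)
    (H482.LCap.capC_num' (p := p) ht ht1 hd1 hs hr hez) x0 k i n' m hk hi j hj' hn hm

end

end Vale.Agent.P141.H883
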