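import Vale.Agent.P141.H883.CapN
import Vale.Agent.P141.H43.SeamPM
import Vale.Agent.P141.H747.StageM

/-!
# P141, line (A), flow part: field `cap` of `Num` on the shifted grids

* `ncap_FDs2` : the slot `C` of the bundle on every rectangle with sides of scale at least
  `j - 1`, time `j`, cap `capV`;
* `ncap_shC` : the same on the shifted grids (factor `4`), any roots;
* `WQ_le` : the weight `WQ ε (RgS R ..)` is at most `ε ^ 2 + κ ^ 2`;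
* `capZ_any`, `capZ` : field `cap` for the families of `H863`.
-/

namespace Vale.Agent.P141.H883

open Finset Matrix
open Vale.Agent.P141.PL (Pt iv ix mem_iv ix_ix cx)
open Vale.Agent.P141.PL.H315 (A2 Tri)
open Vale.Agent.P141.H48 (BSl ES cst sst bg)
open Vale.Agent.P141.H677 (fC kF KT sN rt)
open Vale.Agent.P141.H576 (kD Dd)
open Vale.Agent.P141.H215
open Vale.Agent.P141.H103 (QW)
open Vale.Agent.P075 (Ix val)
open Vale.Agent.P141.H677.Sk (FamA FamV FDs Slt)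
open Vale.Agent.P141.H43.Seam (WQ)
open Vale.Agent.P141.H747 (shC sft RgS RgS_le)

noncomputable section

open scoped Classical

section weight

variable {ι : Type} [Fintype ι] [DecidableEq ι]

/-- the weight of the averaged slot -/
theorem WQ_le {ε κ : ℝ} {R : Slt ι} {x0 : ℤ}
    (hR : ∀ z x, ∀ w : ι → ℝ, (R x0 0 z x *ᵥ w) ⬝ᵥ (R x0 0 z x *ᵥ w) ≤ κ ^ 2 * (w ⬝ᵥ w))
    (h h1 x : ℤ) (k : ℕ) (m : ℤ) :
    ((ε ^ 2 + κ ^ 2) • (1 : Matrix ι ι ℝ) - WQ ε (RgS R h h1 x0) x k m).PosSemidef := by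
  have e : (ε ^ 2 + κ ^ 2) • (1 : Matrix ι ι ℝ) - WQ ε (RgS R h h1 x0) x k m =
      κ ^ 2 • (1 : Matrix ι ι ℝ) - (RgS R h h1 x0 k m x)ᵀ * RgS R h h1 x0 k m x := by
    unfold H43.Seam.WQ
    rw [add_smul, add_sub_add_left_eq_sub]
  rw [e]
  refine PosSemidef.of_dotProduct_mulVec_nonneg ?_ fun w => ?_
  · rw [Matrix.IsHermitian, conjTranspose_eq_transpose_of_trivial, transpose_sub, transpose_smul,
      transpose_one, transpose_mul, transpose_transpose]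
  rw [star_trivial, sub_mulVec, smul_mulVec, one_mulVec, dotProduct_sub, dotProduct_smul,
    smul_eq_mul, ← mulVec_mulVec, dotProduct_mulVec w, vecMul_transpose]
  exact sub_nonneg.2 (RgS_le (hR) h h1 k m x w)

omit [DecidableEq ι] in
/-- a constant factor of the family -/
theorem W3_smul (c : ℝ) (f : ℤ → ℤ → ι → ℝ) (W : ℤ → ℕ → ℤ → Matrix ι ι ℝ) (k a : ℕ) (n m : ℤ) :
    H505.Sk1.W3 (fun x z => c • f x z) W k a n m = c ^ 2 • H505.Sk1.W3 f W k a n m := by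
  unfold H505.Sk1.W3
  ext j j'
  rw [Matrix.smul_apply, smul_eq_mul]
  unfold H103.QW
  rw [mul_left_comm, mul_sum (a := c ^ 2)]
  refine congrArg _ (sum_congr rfl fun x _ => ?_)
  rw [mulVec_smul, smul_dotProduct, dotProduct_smul, smul_eq_mul, smul_eq_mul]
  ring

end weight

section fds

variable {ι : Type} [Fintype ι] [DecidableEq ι] {q : H401.Num} {n : ℕ} {ez : ℝ}
  {F1 F2 F3 : ℕ → Pt → ℝ} {K : ℕ} {x : Pt} {s r P : ℝ} {U : Tri} {g : ℤ → ℤ → ℝ}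
  {u v : ℤ → ℤ → ι → ℝ} {A : FamA} {b C : FamV ι} {Q1 Q2 Q3 : ℕ → Pt → Prop}
  {v' : ℤ → ℤ → ι → ℝ}

/-- **The slot `C` of the bundle**, cap `capV`. -/
theorem ncap_FDs2 (hD : FDs q n ez F1 F2 F3 K x s r U g u v A b C Q1 Q2 Q3 v')
    (hC : H305.Cls K x s r P U g u v) (ht : 0 < q.t) (hs : 0 ≤ s) (hez : 0 ≤ ez) (hKn : K ≤ n)
    {j i k : ℕ} (hj : j ≤ K) (hi : i ≤ K) (hk : k ≤ K) (hji : j ≤ i + 1) (hjk : j ≤ k + 1)
    {m1 m3 : ℤ} (h1 : m1 ∈ iv (K - i) (cx K x).1) (h3 : m3 ∈ iv (K - k) (cx K x).2.2) (x0 : ℤ) :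
    NCap (capV q.Lm s ez * (2 ^ k * 2 ^ i)) (iv k m3) (iv i m1) (nrm (C x0 j)) := by
  have hL : 0 ≤ q.Lm := Real.rpow_nonneg ht.le _
  have h := cd_cut (cd_of_cls hC hL hs hez hKn hD.B2) hD.v_or
  have e : C x0 j = fC v' (kD (fun k y z => sst q.Lm U.2.1 K k y z) F2) x0 j := by
    funext z x'
    rw [hD.C_eq, ← H576.kD_sst]
    rfl
  rw [e]
  exact ncap_all h hj hi hk hji hjk h1 h3 x0

/-- **The slot `C` on the shifted grids**, every rectangle with sides of scale at least `j - 1`. -/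
theorem ncap_shC (hD : FDs q n ez F1 F2 F3 K x s r U g u v A b C Q1 Q2 Q3 v')
    (hC : H305.Cls K x s r P U g u v) (ht : 0 < q.t) (hs : 0 ≤ s) (hez : 0 ≤ ez) (hKn : K ≤ n)
    {j i k : ℕ} (hj : j ≤ K) (hi : i ≤ K) (hk : k ≤ K) (hji : j ≤ i + 1) (hjk : j ≤ k + 1)
    (sh : Pt) (x0 p3 p1 : ℤ) :
    NCap (4 * capV q.Lm s ez * (2 ^ k * 2 ^ i)) (iv k p3) (iv i p1)
      (nrm (shC K (cx K x) sh (C x0) j)) :=
  ncap_sft (capV_nonneg hez) hk hi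
    (fun _ hm3 _ hm1 => ncap_FDs2 hD hC ht hs hez hKn hj hi hk hji hjk hm1 hm3 x0) sh.2.2 sh.1 p3 p1

/-- **Field `cap`, one time.** -/
theorem capZ_any (hD : FDs q n ez F1 F2 F3 K x s r U g u v A b C Q1 Q2 Q3 v')
    (hC : H305.Cls K x s r P U g u v) (ht : 0 < q.t) (hs : 0 ≤ s) (hez : 0 < ez) (hKn : K ≤ n)
    {x0 : ℤ} {R : Slt ι} {κ ε cC : ℝ}
    (hR : ∀ z x, ∀ w : ι → ℝ, (R x0 0 z x *ᵥ w) ⬝ᵥ (R x0 0 z x *ᵥ w) ≤ κ ^ 2 * (w ⬝ᵥ w))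
    (hc : 16 * (ε ^ 2 + κ ^ 2) * √(q.Lm * s) ≤ cC ^ 2) (sh : Pt) {j i k : ℕ} (hj : j ≤ K)
    (hi : i ≤ K) (hk : k ≤ K) (hji : j ≤ i + 1) (hjk : j ≤ k + 1) (n' m : ℤ) :
    (cC ^ 2 • (1 : Matrix (Ix k) (Ix k) ℝ) -
      H505.Sk1.W3 (fun x1 z => (√ez)⁻¹ • shC K (cx K x) sh (C x0) j z x1)
        (WQ ε (RgS R sh.2.2 sh.1 x0)) k i n' m).PosSemidef := by
  have h0 := capV_nonneg (Λ := q.Lm) (s := s) hez.le
  have hθ : 0 ≤ ε ^ 2 + κ ^ 2 := by positivity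
  have h2 := (ncap_shC hD hC ht hs hez.le hKn hj hi hk hji hjk sh x0 m n').flip
  rw [mul_comm ((2 : ℝ) ^ k)] at h2
  have h4 := (NCap.qw (by positivity) hθ h2
    (M := fun x1 => WQ ε (RgS R sh.2.2 sh.1 x0) x1 k m)
    fun x1 _ => WQ_le hR sh.2.2 sh.1 x1 k m).smul (sq_nonneg ((√ez)⁻¹))
  rw [smul_sub, smul_smul] at h4
  have e0 : (√ez)⁻¹ ^ 2 * ((ε ^ 2 + κ ^ 2) * (4 * capV q.Lm s ez)) =
      16 * (ε ^ 2 + κ ^ 2) * √(q.Lm * s) := by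
    unfold capV
    rw [inv_pow, Real.sq_sqrt hez.le]
    calc ez⁻¹ * ((ε ^ 2 + κ ^ 2) * (4 * (4 * (√(q.Lm * s) * ez)))) =
        ez⁻¹ * ez * (16 * (ε ^ 2 + κ ^ 2) * √(q.Lm * s)) := by ring
      _ = _ := by rw [inv_mul_cancel₀ hez.ne', one_mul]
  have h5 : ((cC ^ 2 - (√ez)⁻¹ ^ 2 * ((ε ^ 2 + κ ^ 2) * (4 * capV q.Lm s ez))) •
      (1 : Matrix (Ix k) (Ix k) ℝ)).PosSemidef := by
    refine PosSemidef.one.smul ?_
    rw [e0]
    linarith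
  have e := h5.add h4
  rw [sub_smul, sub_add_sub_cancel] at e
  rw [W3_smul]
  exact e

/-- **Field `cap` of `Num` for the families of the pair `(C, A)` of the flow part.** -/
theorem capZ (hD : FDs q n ez F1 F2 F3 K x s r U g u v A b C Q1 Q2 Q3 v')
    (hC : H305.Cls K x s r P U g u v) (ht : 0 < q.t) (hs : 0 ≤ s) (hez : 0 < ez) (hKn : K ≤ n)
    {x0 : ℤ} {R : Slt ι} {κ ε cC : ℝ}
    (hR : ∀ z x, ∀ w : ι → ℝ, (R x0 0 z x *ᵥ w) ⬝ᵥ (R x0 0 z x *ᵥ w) ≤ κ ^ 2 * (w ⬝ᵥ w))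
    (hc : 16 * (ε ^ 2 + κ ^ 2) * √(q.Lm * s) ≤ cC ^ 2) (sh : Pt) (k a : ℕ) (n' m : ℤ)
    (hk : k ≤ K) (ha : a ≤ K) (j : ℕ) (hj : j ≤ min k a + 1) :
    (cC ^ 2 • (1 : Matrix (Ix k) (Ix k) ℝ) -
      H505.Sk1.W3 (fun x1 z => (√ez)⁻¹ • shC K (cx K x) sh (C x0) (min j K) z x1)
        (WQ ε (RgS R sh.2.2 sh.1 x0)) k a n' m).PosSemidef :=
  capZ_any hD hC ht hs hez hKn hR hc sh (min_le_right _ _) ha hk
    ((min_le_left _ _).trans (hj.trans (Nat.succ_le_succ (min_le_right _ _))))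
    ((min_le_left _ _).trans (hj.trans (Nat.succ_le_succ (min_le_left _ _)))) n' m

end fds

end

end Vale.Agent.P141.H883
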